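import Vale.Agent.P026.QLS
import Vale.Agent.P026.ThB
import Vale.Agent.P026.ThC
import Vale.Agent.P026.VorMain
import Vale.Agent.P026.RecStep
import Vale.Agent.P026.Final3

namespace Vale.Agent.Results.P026.A_ZeroFree

open Vale.Agent.P026

theorem result :
    (∀ s : ℂ, 1999 / 2000 < s.re → riemannZeta s ≠ 0) ∧
    ∀ (q : ℕ) [NeZero q] (χ : DirichletCharacter ℂ q) (s : ℂ), 1999 / 2000 < s.re → s ≠ 1 →
      DirichletCharacter.LFunction χ s ≠ 0 := by
  have h : ∀ Q : O, Q ≠ 0 → (72 : O) ∣ Q → PStmt Q (1 / 10000) := fun Q hQ h72 =>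
    rec_main (vb qls (theta thB)) hQ h72 (by norm_num)
  exact ⟨fun s hs => zeta_zero_free h hs, fun q _ χ s hs h1 => zero_free h χ hs h1⟩

end Vale.Agent.Results.P026.A_ZeroFree
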