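import Vale.Agent.P026.QLS
import Vale.Agent.P026.ThB
import Vale.Agent.P026.ThC
import Vale.Agent.P026.VorMain
import Vale.Agent.P026.RecStep
import Vale.Agent.P026.Final3

namespace Vale.Agent.Results.P026.Full

open Vale.Agent.P026

theorem result :
    (∀ s : ℂ, 1999 / 2000 < s.re → riemannZeta s ≠ 0) ∧
    ∀ (q : ℕ) [NeZero q] (χ : DirichletCharacter ℂ q) (s : ℂ), 1999 / 2000 < s.re →
      (χ ≠ 1 ∨ s ≠ 1) → DirichletCharacter.LFunction χ s ≠ 0 := by
  have hP : ∀ Q : O, Q ≠ 0 → (72 : O) ∣ Q → PStmt Q (1 / 10000) := fun Q h0 h72 =>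
    rec_main (vb qls (theta thB)) h0 h72 (by norm_num)
  refine ⟨fun s hs => zeta_zero_free hP hs, fun q _ χ s hs h => ?_⟩
  rcases eq_or_ne s 1 with rfl | h1
  · exact DirichletCharacter.LFunction_ne_zero_of_one_le_re χ h (by simp)
  · exact zero_free hP χ hs h1

end Vale.Agent.Results.P026.Full
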